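import Vale.Agent.P141.PL.H477.Win

/-!
# P141: the static one-gauge estimate (D3) on arbitrary stopping families

For fixed `x3` the two vertices `1` and `2` are treated by exact Haar telescoping (parallelogram
identity) on the sections of the face-2 tree and of the face-1 tree; no plane error, no third index.
-/

namespace Vale.Agent.P141.PL.H135

open Finset Vale.Agent.P141.PL Vale.Agent.P141.PL.H477

noncomputable section

/-! ### parallelogram identity -/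

theorem iv_half (k : ℕ) (m : ℤ) : iv (k + 1) m = iv k (2 * m) ∪ iv k (2 * m + 1) := by
  ext x
  rw [mem_union, mem_iv, mem_iv, mem_iv]
  have e : ix (k + 1) x = ix k x / 2 := by
    unfold ix
    rw [pow_succ, ← Int.ediv_ediv_of_nonneg (by positivity)]
  rw [e]
  omega

theorem iv_disj (k : ℕ) (m : ℤ) : Disjoint (iv k (2 * m)) (iv k (2 * m + 1)) := by
  rw [disjoint_left]
  intro x h1 h2
  rw [mem_iv] at h1 h2
  omega

theorem sum_iv_half {M : Type*} [AddCommMonoid M] (k : ℕ) (m : ℤ) (f : ℤ → M) :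
    ∑ x ∈ iv (k + 1) m, f x = ∑ x ∈ iv k (2 * m), f x + ∑ x ∈ iv k (2 * m + 1), f x := by
  rw [iv_half, sum_union (iv_disj k m)]

theorem hs_left {k : ℕ} {m x : ℤ} (h : x ∈ iv k (2 * m)) : hs (k + 1) x = 1 := by
  rw [mem_iv] at h
  unfold hs
  rw [Nat.add_sub_cancel, h, if_pos (by omega)]

theorem hs_right {k : ℕ} {m x : ℤ} (h : x ∈ iv k (2 * m + 1)) : hs (k + 1) x = -1 := by
  rw [mem_iv] at h
  unfold hs
  rw [Nat.add_sub_cancel, h, if_neg (by omega)]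

/-- parallelogram identity on an interval -/
theorem haar_step (k : ℕ) (m : ℤ) (f : ℤ → ℝ) :
    2 * ((∑ x ∈ iv k (2 * m), f x) ^ 2 + (∑ x ∈ iv k (2 * m + 1), f x) ^ 2)
      = (∑ x ∈ iv (k + 1) m, f x) ^ 2 + (∑ x ∈ iv (k + 1) m, hs (k + 1) x * f x) ^ 2 := by
  rw [sum_iv_half, sum_iv_half]
  have h1 : ∑ x ∈ iv k (2 * m), hs (k + 1) x * f x = ∑ x ∈ iv k (2 * m), f x :=
    sum_congr rfl fun x hx => by rw [hs_left hx, one_mul]
  have h2 : ∑ x ∈ iv k (2 * m + 1), hs (k + 1) x * f x = - ∑ x ∈ iv k (2 * m + 1), f x := by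
    rw [← sum_neg_distrib]
    exact sum_congr rfl fun x hx => by rw [hs_right hx]; ring
  rw [h1, h2]
  ring

/-! ### the vertex functional

`f i z x y`: label `i`, `z` the fixed variable (third coordinate of the cube), `x` the averaged
variable (first coordinate), `y` the variable of the vertex (second coordinate). -/

variable {ι : Type*} [Fintype ι]

/-- energy of the cube `c` -/
def vE (f : ι → ℤ → ℤ → ℤ → ℝ) (k : ℕ) (c : Pt) : ℝ :=
  (2 ^ k : ℝ)⁻¹ * ∑ z ∈ iv k c.2.2, ∑ x ∈ iv k c.1, ∑ i, (∑ y ∈ iv k c.2.1, f i z x y) ^ 2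

/-- Haar energy of the cube `c` -/
def vD (f : ι → ℤ → ℤ → ℤ → ℝ) (k : ℕ) (c : Pt) : ℝ :=
  (2 ^ k : ℝ)⁻¹ * ∑ z ∈ iv k c.2.2, ∑ x ∈ iv k c.1, ∑ i, (∑ y ∈ iv k c.2.1, hs k y * f i z x y) ^ 2

theorem vE_nonneg (f : ι → ℤ → ℤ → ℤ → ℝ) (k : ℕ) (c : Pt) : 0 ≤ vE f k c :=
  mul_nonneg (by positivity) (sum_nonneg fun _ _ => sum_nonneg fun _ _ => sum_nonneg fun _ _ =>
    sq_nonneg _)

theorem vD_nonneg (f : ι → ℤ → ℤ → ℤ → ℝ) (k : ℕ) (c : Pt) : 0 ≤ vD f k c :=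
  mul_nonneg (by positivity) (sum_nonneg fun _ _ => sum_nonneg fun _ _ => sum_nonneg fun _ _ =>
    sq_nonneg _)

theorem sum_cb_one {M : Type*} [AddCommMonoid M] (c : Pt) (g : Pt → M) :
    ∑ c' ∈ cb 1 c, g c' = ∑ a ∈ iv 1 c.1, ∑ b ∈ iv 1 c.2.1, ∑ d ∈ iv 1 c.2.2, g (a, b, d) := by
  unfold cb
  rw [sum_product]
  refine sum_congr rfl fun a _ => ?_
  rw [sum_product]

/-- **exact step** -/
theorem vE_step (f : ι → ℤ → ℤ → ℤ → ℝ) (k : ℕ) (c : Pt) :
    ∑ c' ∈ cb 1 c, vE f k c' = vE f (k + 1) c + vD f (k + 1) c := by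
  rw [sum_cb_one]
  unfold vE vD
  simp only
  have e1 : ∀ a d : ℤ, ∑ b ∈ iv 1 c.2.1, (2 ^ k : ℝ)⁻¹ * ∑ z ∈ iv k d, ∑ x ∈ iv k a, ∑ i,
      (∑ y ∈ iv k b, f i z x y) ^ 2
      = (2 ^ (k + 1) : ℝ)⁻¹ * ∑ z ∈ iv k d, ∑ x ∈ iv k a, ∑ i,
        ((∑ y ∈ iv (k + 1) c.2.1, f i z x y) ^ 2
          + (∑ y ∈ iv (k + 1) c.2.1, hs (k + 1) y * f i z x y) ^ 2) := by
    intro a d
    rw [sum_iv_one, ← mul_add, ← sum_add_distrib]
    have e2 : ∀ z x : ℤ, ∀ i, (∑ y ∈ iv (k + 1) c.2.1, f i z x y) ^ 2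
          + (∑ y ∈ iv (k + 1) c.2.1, hs (k + 1) y * f i z x y) ^ 2
        = 2 * ((∑ y ∈ iv k (2 * c.2.1), f i z x y) ^ 2
          + (∑ y ∈ iv k (2 * c.2.1 + 1), f i z x y) ^ 2) := fun z x i =>
      (haar_step k c.2.1 (fun y => f i z x y)).symm
    simp only [e2, ← mul_sum, ← sum_add_distrib]
    rw [← mul_assoc]
    congr 1
    rw [pow_succ, mul_inv, mul_assoc, inv_mul_cancel₀ (by norm_num : (2 : ℝ) ≠ 0), mul_one]
  have e3 : ∑ a ∈ iv 1 c.1, ∑ b ∈ iv 1 c.2.1, ∑ d ∈ iv 1 c.2.2, (2 ^ k : ℝ)⁻¹ *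
      ∑ z ∈ iv k d, ∑ x ∈ iv k a, ∑ i, (∑ y ∈ iv k b, f i z x y) ^ 2
      = ∑ a ∈ iv 1 c.1, ∑ d ∈ iv 1 c.2.2, (2 ^ (k + 1) : ℝ)⁻¹ * ∑ z ∈ iv k d, ∑ x ∈ iv k a, ∑ i,
        ((∑ y ∈ iv (k + 1) c.2.1, f i z x y) ^ 2
          + (∑ y ∈ iv (k + 1) c.2.1, hs (k + 1) y * f i z x y) ^ 2) := by
    refine sum_congr rfl fun a _ => ?_
    rw [sum_comm]
    exact sum_congr rfl fun d _ => e1 a d
  rw [e3]
  simp only [← mul_sum]
  rw [← mul_add]
  congr 1
  have e4 : ∀ (g : ℤ → ℤ → ℝ), ∑ a ∈ iv 1 c.1, ∑ d ∈ iv 1 c.2.2, ∑ z ∈ iv k d, ∑ x ∈ iv k a, g z x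
      = ∑ z ∈ iv (k + 1) c.2.2, ∑ x ∈ iv (k + 1) c.1, g z x := by
    intro g
    rw [sum_iv_one]
    simp only [sum_iv_one]
    rw [sum_iv_half]
    simp only [sum_iv_half, sum_add_distrib]
    abel
  rw [e4]
  simp only [sum_add_distrib]

open Classical in
/-- sum of a cube functional over the stopping cubes of the family `A` (alive cubes), inside the
cube `C` of scale `n` -/
def LS (n : ℕ) (C : Pt) (A : ℕ → Pt → Prop) (e : ℕ → Pt → ℝ) : ℝ :=
  ∑ k ∈ range n, ∑ c ∈ cb (n - k) C, (if ¬ A k c ∧ A (k + 1) (cx 1 c) then e k c else 0)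
    + ∑ c ∈ cb n C, (if A 0 c then e 0 c else 0)

open Classical in
/-- **Haar energies of the alive cubes** = leaf energy minus root energy -/
theorem vD_sum {A : ℕ → Pt → Prop} (hA : ∀ k c, A k c → A (k + 1) (cx 1 c))
    (f : ι → ℤ → ℤ → ℤ → ℝ) (n : ℕ) (C : Pt) :
    ∑ k ∈ range n, ∑ c ∈ cb (n - (k + 1)) C, (if A (k + 1) c then vD f (k + 1) c else 0)
      = LS n C A (vE f) - (if A n C then vE f n C else 0) := by
  have h := telescope hA (vE f) n C
  unfold LS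
  rw [← h]
  refine sum_congr rfl fun k _ => sum_congr rfl fun c _ => ?_
  split_ifs
  · rw [vE_step]; ring
  · rfl

open Classical in
theorem vD_sum_le {A : ℕ → Pt → Prop} (hA : ∀ k c, A k c → A (k + 1) (cx 1 c))
    (f : ι → ℤ → ℤ → ℤ → ℝ) (n : ℕ) (C : Pt) :
    ∑ k ∈ range n, ∑ c ∈ cb (n - (k + 1)) C, (if A (k + 1) c then vD f (k + 1) c else 0)
      ≤ LS n C A (vE f) := by
  rw [vD_sum hA]
  have : 0 ≤ (if A n C then vE f n C else 0) := by
    split_ifs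
    · exact vE_nonneg _ _ _
    · exact le_rfl
  linarith

/-! ### leaf sums -/

section LS

variable {n : ℕ} {C : Pt} {A : ℕ → Pt → Prop} {e e' e'' : ℕ → Pt → ℝ}

open Classical in
theorem LS_nonneg (he : ∀ k c, 0 ≤ e k c) : 0 ≤ LS n C A e := by
  unfold LS
  refine add_nonneg (sum_nonneg fun k _ => sum_nonneg fun c _ => ?_) (sum_nonneg fun c _ => ?_)
  · split_ifs
    · exact he _ _
    · exact le_rfl
  · split_ifs
    · exact he _ _
    · exact le_rfl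

open Classical in
/-- monotone on the stopping cubes inside `C` -/
theorem LS_mono (h1 : ∀ k < n, ∀ c ∈ cb (n - k) C, ¬ A k c → A (k + 1) (cx 1 c) → e k c ≤ e' k c)
    (h0 : ∀ c ∈ cb n C, A 0 c → e 0 c ≤ e' 0 c) : LS n C A e ≤ LS n C A e' := by
  unfold LS
  refine add_le_add (sum_le_sum fun k hk => sum_le_sum fun c hc => ?_)
    (sum_le_sum fun c hc => ?_)
  · split_ifs with h
    · exact h1 k (mem_range.mp hk) c hc h.1 h.2
    · exact le_rfl
  · split_ifs with h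
    · exact h0 c hc h
    · exact le_rfl

open Classical in
/-- the stopping cubes as one finite set -/
def lset (n : ℕ) (C : Pt) (A : ℕ → Pt → Prop) : Finset (Σ _ : ℕ, Pt) :=
  (range (n + 1)).sigma fun k => (cb (n - k) C).filter fun c =>
    (k < n ∧ ¬ A k c ∧ A (k + 1) (cx 1 c)) ∨ (k = 0 ∧ A 0 c)

open Classical in
theorem LS_eq (n : ℕ) (C : Pt) (A : ℕ → Pt → Prop) (e : ℕ → Pt → ℝ) :
    LS n C A e = ∑ s ∈ lset n C A, e s.1 s.2 := by
  unfold lset
  rw [sum_sigma]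
  simp only [sum_filter]
  have h1 : ∀ k ∈ range (n + 1), ∑ c ∈ cb (n - k) C,
      (if (k < n ∧ ¬ A k c ∧ A (k + 1) (cx 1 c)) ∨ (k = 0 ∧ A 0 c) then e k c else 0)
      = (if k < n then ∑ c ∈ cb (n - k) C, (if ¬ A k c ∧ A (k + 1) (cx 1 c) then e k c else 0)
          else 0) + (if k = 0 then ∑ c ∈ cb n C, (if A 0 c then e 0 c else 0) else 0) := by
    intro k hk
    have hk' := mem_range.mp hk
    by_cases h0 : k = 0
    · subst h0
      rw [if_pos rfl, Nat.sub_zero]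
      by_cases hn : 0 < n
      · rw [if_pos hn, ← sum_add_distrib]
        refine sum_congr rfl fun c _ => ?_
        by_cases hc : A 0 c
        · rw [if_pos (Or.inr ⟨rfl, hc⟩), if_neg (fun h => h.1 hc), if_pos hc, zero_add]
        · by_cases hc' : A 1 (cx 1 c)
          · rw [if_pos (Or.inl ⟨hn, hc, hc'⟩), if_pos ⟨hc, hc'⟩, if_neg hc, add_zero]
          · rw [if_neg (by tauto), if_neg (by tauto), if_neg hc, add_zero]
      · rw [if_neg hn]
        simp only [zero_add]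
        refine sum_congr rfl fun c _ => ?_
        by_cases hc : A 0 c
        · rw [if_pos (by tauto), if_pos hc]
        · rw [if_neg (by tauto), if_neg hc]
    · rw [if_neg h0, add_zero]
      by_cases hn : k < n
      · rw [if_pos hn]
        refine sum_congr rfl fun c _ => ?_
        by_cases hc : ¬ A k c ∧ A (k + 1) (cx 1 c)
        · rw [if_pos (Or.inl ⟨hn, hc.1, hc.2⟩), if_pos hc]
        · rw [if_neg (by tauto), if_neg hc]
      · rw [if_neg hn]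
        refine sum_eq_zero fun c _ => ?_
        rw [if_neg (by tauto)]
  rw [sum_congr rfl h1, sum_add_distrib, ← sum_filter, ← sum_filter]
  have f1 : (range (n + 1)).filter (fun k => k < n) = range n := by
    ext k; simp only [mem_filter, mem_range]; omega
  have f2 : (range (n + 1)).filter (fun k => k = 0) = {0} := by
    ext k; simp only [mem_filter, mem_range, mem_singleton]; omega
  rw [f1, f2, sum_singleton]
  rfl

/-- Cauchy-Schwarz on the stopping cubes -/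
theorem LS_cs (he' : ∀ k c, 0 ≤ e' k c) (he'' : ∀ k c, 0 ≤ e'' k c)
    (h : ∀ k c, e k c ^ 2 ≤ e' k c * e'' k c) :
    LS n C A e ≤ Real.sqrt (LS n C A e') * Real.sqrt (LS n C A e'') := by
  rw [LS_eq, LS_eq, LS_eq]
  have h1 : ∀ s ∈ lset n C A, e s.1 s.2
      ≤ Real.sqrt (e' s.1 s.2) * Real.sqrt (e'' s.1 s.2) := by
    intro s _
    rw [← Real.sqrt_mul (he' _ _)]
    exact Real.le_sqrt_of_sq_le (h _ _)
  refine (sum_le_sum h1).trans ?_
  exact Real.sum_sqrt_mul_sqrt_le _ (fun s => he' _ _) (fun s => he'' _ _)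

end LS

end

end Vale.Agent.P141.PL.H135
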