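import Vale.Agent.P141.PL.H135.D3

/-!
# P141: the static one-gauge estimate (D3), assembly

`d3_main`: boxes whose face-2 cube is in the family `A2` and whose face-1 cube is in the family `A1`
(both closed under parents, otherwise arbitrary); box values dominated by the two vertex energies.
`d3_loc`: the local forms of `F0, F1, F2, F3` if the product `F3 (x0,x1,x2) * F0 (x1,x2,x3)` is a sum
of products `a (x3,x0,x1) * b (x3,x0,x2)` (labels in any finite families, coefficient matrices which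
may depend on the box, bounded by `1`).
`d3_gauge`: labels `(j, l)`: `F3 = u * sum_j p_j q_j`, `u * F0 = sum_l e_l f_l`; the leaf energies are
split by Cauchy-Schwarz, power `1/4` each.
-/

namespace Vale.Agent.P141.PL.H135

open Finset Vale.Agent.P141.PL Vale.Agent.P141.PL.H477

noncomputable section

theorem sum_Icc_range (n : ℕ) (F : ℕ → ℝ) :
    ∑ k ∈ Icc 1 n, F k = ∑ k ∈ range n, F (k + 1) := by
  rw [range_eq_Ico, sum_Ico_add' F 0 n 1]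
  refine sum_congr ?_ fun _ _ => rfl
  ext k
  simp only [mem_Icc, mem_Ico]
  omega

/-- the square of the vertex energy of a box, `z` fixed -/
def vS {ι : Type*} [Fintype ι] (f : ι → ℤ → ℤ → ℤ → ℝ) (k : ℕ) (a b z : ℤ) : ℝ :=
  ∑ x ∈ iv k a, ∑ i, (∑ y ∈ iv k b, hs k y * f i z x y) ^ 2

theorem vS_nonneg {ι : Type*} [Fintype ι] (f : ι → ℤ → ℤ → ℤ → ℝ) (k : ℕ) (a b z : ℤ) :
    0 ≤ vS f k a b z := sum_nonneg fun _ _ => sum_nonneg fun _ _ => sq_nonneg _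

theorem vD_eq {ι : Type*} [Fintype ι] (f : ι → ℤ → ℤ → ℤ → ℝ) (k : ℕ) (c : Pt) :
    vD f k c = (2 ^ k : ℝ)⁻¹ * ∑ z ∈ iv k c.2.2, vS f k c.1 c.2.1 z := rfl

variable {ι κ : Type*} [Fintype ι] [Fintype κ]

open Classical in
theorem vD_boxes {A : ℕ → Pt → Prop} (hA : ∀ k c, A k c → A (k + 1) (cx 1 c))
    (f : ι → ℤ → ℤ → ℤ → ℝ) (n : ℕ) (R : Bx) (j : Fin 4) {P : ℕ → Bx → Prop}
    (hP : ∀ k m, P k m → NP m ∧ A k (fcb j m)) :
    ∑ k ∈ Icc 1 n, ∑ m ∈ dn (n - k) R, (if P k m then vD f k (fcb j m) else 0)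
      ≤ 3 * LS n (fcb j R) A (vE f) := by
  have h6 : ∑ k ∈ Icc 1 n, ∑ m ∈ dn (n - k) R, (if P k m then vD f k (fcb j m) else 0)
      ≤ ∑ k ∈ Icc 1 n, ∑ m ∈ dn (n - k) R,
        (if NP m then (if A k (fcb j m) then vD f k (fcb j m) else 0) else 0) := by
    refine sum_le_sum fun k _ => sum_le_sum fun m _ => ?_
    by_cases hp : P k m
    · rw [if_pos hp, if_pos (hP k m hp).1, if_pos (hP k m hp).2]
    · rw [if_neg hp]
      split_ifs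
      · exact vD_nonneg _ _ _
      · exact le_rfl
      · exact le_rfl
  have h7 : ∀ k, ∑ m ∈ dn (n - k) R,
        (if NP m then (if A k (fcb j m) then vD f k (fcb j m) else 0) else 0)
      ≤ 3 * ∑ c ∈ cb (n - k) (fcb j R), (if A k c then vD f k c else 0) := fun k =>
    sum_dn_NP_face_le j (n - k) R (fun c => if A k c then vD f k c else 0) (fun c => by
      split_ifs
      · exact vD_nonneg _ _ _
      · exact le_rfl)
  refine h6.trans ((sum_le_sum fun k _ => h7 k).trans ?_)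
  rw [← mul_sum, sum_Icc_range]
  exact mul_le_mul_of_nonneg_left (vD_sum_le hA f n (fcb j R)) (by norm_num)

open Classical in
/-- **(D3), abstract form.** -/
theorem d3_main {A2 A1 : ℕ → Pt → Prop} (hA2 : ∀ k c, A2 k c → A2 (k + 1) (cx 1 c))
    (hA1 : ∀ k c, A1 k c → A1 (k + 1) (cx 1 c)) (f : ι → ℤ → ℤ → ℤ → ℝ) (g : κ → ℤ → ℤ → ℤ → ℝ)
    (n : ℕ) (R : Bx) {P : ℕ → Bx → Prop}
    (hP : ∀ k m, P k m → NP m ∧ A2 k (fcb 2 m) ∧ A1 k (fcb 1 m)) (v : ℕ → Bx → ℝ)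
    (hv : ∀ k m, P k m → |v k m| ≤ ∑ z ∈ iv k m.2.2.2,
      Real.sqrt (vS f k m.1 m.2.1 z) * Real.sqrt (vS g k m.1 m.2.2.1 z)) :
    ∑ k ∈ Icc 1 n, (2 ^ k : ℝ)⁻¹ * ∑ m ∈ dn (n - k) R, (if P k m then |v k m| else 0)
      ≤ 3 * Real.sqrt (LS n (fcb 2 R) A2 (vE f)) * Real.sqrt (LS n (fcb 1 R) A1 (vE g)) := by
  set S : Finset (Σ _ : ℕ, Bx) := (Icc 1 n).sigma fun k => (dn (n - k) R).filter (P k) with hS
  have e0 : ∀ w : ℕ → Bx → ℝ, ∑ k ∈ Icc 1 n, ∑ m ∈ dn (n - k) R, (if P k m then w k m else 0)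
      = ∑ s ∈ S, w s.1 s.2 := by
    intro w
    rw [hS, sum_sigma]
    refine sum_congr rfl fun k _ => ?_
    rw [sum_filter]
  have e0' : ∑ k ∈ Icc 1 n, (2 ^ k : ℝ)⁻¹ * ∑ m ∈ dn (n - k) R, (if P k m then |v k m| else 0)
      = ∑ s ∈ S, (2 ^ s.1 : ℝ)⁻¹ * |v s.1 s.2| := by
    rw [← e0 (fun k m => (2 ^ k : ℝ)⁻¹ * |v k m|)]
    refine sum_congr rfl fun k _ => ?_
    rw [mul_sum]
    refine sum_congr rfl fun m _ => ?_
    rw [mul_ite, mul_zero]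
  have hPS : ∀ s ∈ S, P s.1 s.2 := by
    intro s hs
    rw [hS, mem_sigma, mem_filter] at hs
    exact hs.2.2
  have e1 : ∀ s ∈ S, (2 ^ s.1 : ℝ)⁻¹ * |v s.1 s.2|
      ≤ Real.sqrt (vD f s.1 (fcb 2 s.2)) * Real.sqrt (vD g s.1 (fcb 1 s.2)) := by
    intro s hs
    have h1 := hv s.1 s.2 (hPS s hs)
    have h2 := Real.sum_sqrt_mul_sqrt_le (iv s.1 s.2.2.2.2)
      (f := fun z => vS f s.1 s.2.1 s.2.2.1 z) (g := fun z => vS g s.1 s.2.1 s.2.2.2.1 z)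
      (fun z => vS_nonneg _ _ _ _ _) (fun z => vS_nonneg _ _ _ _ _)
    have h3 : (0 : ℝ) ≤ (2 ^ s.1 : ℝ)⁻¹ := by positivity
    refine (mul_le_mul_of_nonneg_left (h1.trans h2) h3).trans (le_of_eq ?_)
    have e3 : vD f s.1 (fcb 2 s.2) = (2 ^ s.1 : ℝ)⁻¹ * ∑ z ∈ iv s.1 s.2.2.2.2,
      vS f s.1 s.2.1 s.2.2.1 z := rfl
    have e4 : vD g s.1 (fcb 1 s.2) = (2 ^ s.1 : ℝ)⁻¹ * ∑ z ∈ iv s.1 s.2.2.2.2,
      vS g s.1 s.2.1 s.2.2.2.1 z := rfl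
    rw [e3, e4, Real.sqrt_mul h3, Real.sqrt_mul h3]
    have h4 := Real.mul_self_sqrt h3
    linear_combination (-(Real.sqrt (∑ z ∈ iv s.1 s.2.2.2.2, vS f s.1 s.2.1 s.2.2.1 z)
      * Real.sqrt (∑ z ∈ iv s.1 s.2.2.2.2, vS g s.1 s.2.1 s.2.2.2.1 z))) * h4
  rw [e0']
  refine (sum_le_sum e1).trans ?_
  have h5 := Real.sum_sqrt_mul_sqrt_le S
    (f := fun s => vD f s.1 (fcb 2 s.2)) (g := fun s => vD g s.1 (fcb 1 s.2))
    (fun s => vD_nonneg _ _ _) (fun s => vD_nonneg _ _ _)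
  refine h5.trans ?_
  have k2 := vD_boxes hA2 f n R 2 (fun k m hp => ⟨(hP k m hp).1, (hP k m hp).2.1⟩)
  have k1 := vD_boxes hA1 g n R 1 (fun k m hp => ⟨(hP k m hp).1, (hP k m hp).2.2⟩)
  rw [e0 (fun k m => vD f k (fcb 2 m))] at k2
  rw [e0 (fun k m => vD g k (fcb 1 m))] at k1
  refine (mul_le_mul (Real.sqrt_le_sqrt k2) (Real.sqrt_le_sqrt k1) (Real.sqrt_nonneg _)
    (Real.sqrt_nonneg _)).trans (le_of_eq ?_)
  rw [Real.sqrt_mul (by norm_num : (0 : ℝ) ≤ 3), Real.sqrt_mul (by norm_num : (0 : ℝ) ≤ 3)]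
  have h8 := Real.mul_self_sqrt (by norm_num : (0 : ℝ) ≤ 3)
  linear_combination (Real.sqrt (LS n (fcb 2 R) A2 (vE f)) * Real.sqrt (LS n (fcb 1 R) A1 (vE g))) * h8

/-- coefficient matrices bounded by `1` -/
def Ctr (T : ι → κ → ℝ) : Prop :=
  ∀ (α : ι → ℝ) (β : κ → ℝ), ∑ i, ∑ j, T i j * α i * β j
    ≤ Real.sqrt (∑ i, α i ^ 2) * Real.sqrt (∑ j, β j ^ 2)

theorem Ctr.abs {T : ι → κ → ℝ} (hT : Ctr T) (α : ι → ℝ) (β : κ → ℝ) :
    |∑ i, ∑ j, T i j * α i * β j| ≤ Real.sqrt (∑ i, α i ^ 2) * Real.sqrt (∑ j, β j ^ 2) := by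
  rw [abs_le]
  constructor
  · have h := hT (fun i => - α i) β
    have e1 : ∑ i, ∑ j, T i j * (- α i) * β j = - ∑ i, ∑ j, T i j * α i * β j := by
      simp only [← sum_neg_distrib]
      exact sum_congr rfl fun i _ => sum_congr rfl fun j _ => by ring
    have e2 : ∑ i, (- α i) ^ 2 = ∑ i, α i ^ 2 := sum_congr rfl fun i _ => by ring
    rw [e1, e2] at h
    linarith
  · exact hT α β

/-- the identity matrix -/
theorem Ctr.one [DecidableEq ι] : Ctr (fun i j : ι => if i = j then (1 : ℝ) else 0) := by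
  intro α β
  have e1 : ∑ i, ∑ j, (if i = j then (1 : ℝ) else 0) * α i * β j = ∑ i, α i * β i := by
    refine sum_congr rfl fun i _ => ?_
    rw [sum_eq_single i]
    · rw [if_pos rfl, one_mul]
    · intro j _ hj
      rw [if_neg (Ne.symm hj), zero_mul, zero_mul]
    · intro h; exact absurd (mem_univ i) h
  rw [e1]
  exact Real.sum_mul_le_sqrt_mul_sqrt _ _ _

theorem swap4 (s t : Finset ℤ) (T : ι → κ → ℝ) (A : ι → ℤ → ℝ) (B : κ → ℤ → ℝ) :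
    ∑ x ∈ s, ∑ y ∈ t, ∑ i, ∑ j, T i j * A i x * B j y
      = ∑ i, ∑ j, T i j * (∑ x ∈ s, A i x) * (∑ y ∈ t, B j y) := by
  have e1 : ∀ x ∈ s, ∑ y ∈ t, ∑ i, ∑ j, T i j * A i x * B j y
      = ∑ i, ∑ j, T i j * A i x * (∑ y ∈ t, B j y) := by
    intro x _
    rw [sum_comm]
    refine sum_congr rfl fun i _ => ?_
    rw [sum_comm]
    refine sum_congr rfl fun j _ => ?_
    rw [mul_sum]
  rw [sum_congr rfl e1, sum_comm]
  refine sum_congr rfl fun i _ => ?_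
  rw [sum_comm]
  refine sum_congr rfl fun j _ => ?_
  rw [← sum_mul, ← mul_sum]

/-- box inequality -/
theorem loc_le {k : ℕ} {m : Bx} {F0 F1 F2 F3 : Pt → ℝ} (a : ι → ℤ → ℤ → ℤ → ℝ)
    (b : κ → ℤ → ℤ → ℤ → ℝ) (T : ℤ → ℤ → ι → κ → ℝ) (hT : ∀ z x, Ctr (T z x))
    (h : ∀ x0 ∈ iv k m.1, ∀ x1 ∈ iv k m.2.1, ∀ x2 ∈ iv k m.2.2.1, ∀ x3 ∈ iv k m.2.2.2,
      F3 (x0, x1, x2) * F0 (x1, x2, x3) = ∑ i, ∑ j, T x3 x0 i j * a i x3 x0 x1 * b j x3 x0 x2) :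
    |loc k m F0 F1 F2 F3| ≤ ∑ z ∈ iv k m.2.2.2,
      Real.sqrt (vS (fun i z x y => F2 (x, y, z) * a i z x y) k m.1 m.2.1 z)
        * Real.sqrt (vS (fun j z x y => F1 (x, y, z) * b j z x y) k m.1 m.2.2.1 z) := by
  set U : ℤ → ℤ → ι → ℝ := fun z x i =>
    ∑ y ∈ iv k m.2.1, hs k y * (F2 (x, y, z) * a i z x y) with hU
  set V : ℤ → ℤ → κ → ℝ := fun z x j =>
    ∑ y ∈ iv k m.2.2.1, hs k y * (F1 (x, y, z) * b j z x y) with hV
  have e : loc k m F0 F1 F2 F3 = ∑ x3 ∈ iv k m.2.2.2, ∑ x0 ∈ iv k m.1,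
      hs k x3 * hs k x0 * ∑ i, ∑ j, T x3 x0 i j * U x3 x0 i * V x3 x0 j := by
    unfold loc
    rw [sum_comm]
    have e1 : ∀ x0 ∈ iv k m.1, ∀ x3 ∈ iv k m.2.2.2, ∑ x1 ∈ iv k m.2.1, ∑ x2 ∈ iv k m.2.2.1,
        hs k x0 * hs k x1 * hs k x2 * hs k x3 * prd F0 F1 F2 F3 x0 x1 x2 x3
        = hs k x3 * hs k x0 * ∑ i, ∑ j, T x3 x0 i j * U x3 x0 i * V x3 x0 j := by
      intro x0 h0 x3 h3
      rw [hU, hV, ← swap4 (iv k m.2.1) (iv k m.2.2.1) (T x3 x0)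
        (fun i y => hs k y * (F2 (x0, y, x3) * a i x3 x0 y))
        (fun j y => hs k y * (F1 (x0, y, x3) * b j x3 x0 y)), mul_sum]
      refine sum_congr rfl fun x1 h1 => ?_
      rw [mul_sum]
      refine sum_congr rfl fun x2 h2 => ?_
      have h4 := h x0 h0 x1 h1 x2 h2 x3 h3
      have h5 : prd F0 F1 F2 F3 x0 x1 x2 x3
          = (F3 (x0, x1, x2) * F0 (x1, x2, x3)) * (F1 (x0, x2, x3) * F2 (x0, x1, x3)) := by
        unfold prd; ring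
      rw [h5, h4, sum_mul, mul_sum, mul_sum]
      refine sum_congr rfl fun i _ => ?_
      rw [sum_mul, mul_sum, mul_sum]
      refine sum_congr rfl fun j _ => ?_
      ring
    rw [sum_comm, sum_comm (s := iv k m.2.2.2)]
    refine sum_congr rfl fun x0 h0 => ?_
    rw [← sum_congr rfl (e1 x0 h0)]
    have e2 : ∀ x1 : ℤ, ∑ x2 ∈ iv k m.2.2.1, ∑ x3 ∈ iv k m.2.2.2,
        hs k x0 * hs k x1 * hs k x2 * hs k x3 * prd F0 F1 F2 F3 x0 x1 x2 x3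
        = ∑ x3 ∈ iv k m.2.2.2, ∑ x2 ∈ iv k m.2.2.1,
        hs k x0 * hs k x1 * hs k x2 * hs k x3 * prd F0 F1 F2 F3 x0 x1 x2 x3 := fun _ => sum_comm
    simp only [e2]
    exact sum_comm
  rw [e]
  refine (abs_sum_le_sum_abs _ _).trans (sum_le_sum fun x3 _ => ?_)
  refine (abs_sum_le_sum_abs _ _).trans ?_
  have e6 : ∀ x0 ∈ iv k m.1, |hs k x3 * hs k x0 * ∑ i, ∑ j, T x3 x0 i j * U x3 x0 i * V x3 x0 j|
      ≤ Real.sqrt (∑ i, U x3 x0 i ^ 2) * Real.sqrt (∑ j, V x3 x0 j ^ 2) := by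
    intro x0 _
    rw [abs_mul, abs_mul, abs_hs, abs_hs, one_mul, one_mul]
    exact (hT x3 x0).abs _ _
  refine (sum_le_sum e6).trans ?_
  exact Real.sum_sqrt_mul_sqrt_le _ (fun x0 => sum_nonneg fun _ _ => sq_nonneg _)
    (fun x0 => sum_nonneg fun _ _ => sq_nonneg _)

open Classical in
/-- **(D3) for the local forms.** -/
theorem d3_loc {A2 A1 : ℕ → Pt → Prop} (hA2 : ∀ k c, A2 k c → A2 (k + 1) (cx 1 c))
    (hA1 : ∀ k c, A1 k c → A1 (k + 1) (cx 1 c)) (n : ℕ) (R : Bx) {P : ℕ → Bx → Prop}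
    (hP : ∀ k m, P k m → NP m ∧ A2 k (fcb 2 m) ∧ A1 k (fcb 1 m))
    (F1 F2 : Pt → ℝ) (G0 G1 G2 G3 : ℕ → Bx → Pt → ℝ)
    (a : ι → ℤ → ℤ → ℤ → ℝ) (b : κ → ℤ → ℤ → ℤ → ℝ)
    (T : ℕ → Bx → ℤ → ℤ → ι → κ → ℝ) (hT : ∀ k m z x, Ctr (T k m z x))
    (h1 : ∀ k m, P k m → ∀ p ∈ cb k (fcb 1 m), G1 k m p = F1 p)
    (h2 : ∀ k m, P k m → ∀ p ∈ cb k (fcb 2 m), G2 k m p = F2 p)
    (h : ∀ k m, P k m → ∀ x0 ∈ iv k m.1, ∀ x1 ∈ iv k m.2.1, ∀ x2 ∈ iv k m.2.2.1,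
      ∀ x3 ∈ iv k m.2.2.2, G3 k m (x0, x1, x2) * G0 k m (x1, x2, x3)
        = ∑ i, ∑ j, T k m x3 x0 i j * a i x3 x0 x1 * b j x3 x0 x2) :
    ∑ k ∈ Icc 1 n, (2 ^ k : ℝ)⁻¹ * ∑ m ∈ dn (n - k) R,
        (if P k m then |loc k m (G0 k m) (G1 k m) (G2 k m) (G3 k m)| else 0)
      ≤ 3 * Real.sqrt (LS n (fcb 2 R) A2 (vE fun i z x y => F2 (x, y, z) * a i z x y))
        * Real.sqrt (LS n (fcb 1 R) A1 (vE fun j z x y => F1 (x, y, z) * b j z x y)) := by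
  refine d3_main hA2 hA1 _ _ n R hP (fun k m => loc k m (G0 k m) (G1 k m) (G2 k m) (G3 k m)) ?_
  intro k m hp
  refine (loc_le a b (T k m) (hT k m) (h k m hp)).trans (le_of_eq ?_)
  refine sum_congr rfl fun z hz => ?_
  have e1 : vS (fun i z x y => G2 k m (x, y, z) * a i z x y) k m.1 m.2.1 z
      = vS (fun i z x y => F2 (x, y, z) * a i z x y) k m.1 m.2.1 z := by
    unfold vS
    refine sum_congr rfl fun x hx => sum_congr rfl fun i _ => ?_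
    congr 1
    refine sum_congr rfl fun y hy => ?_
    show hs k y * (G2 k m (x, y, z) * a i z x y) = hs k y * (F2 (x, y, z) * a i z x y)
    rw [h2 k m hp (x, y, z) (by
      show (x, y, z) ∈ iv k m.1 ×ˢ iv k m.2.1 ×ˢ iv k m.2.2.2
      rw [mem_product, mem_product]
      exact ⟨hx, hy, hz⟩)]
  have e2 : vS (fun j z x y => G1 k m (x, y, z) * b j z x y) k m.1 m.2.2.1 z
      = vS (fun j z x y => F1 (x, y, z) * b j z x y) k m.1 m.2.2.1 z := by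
    unfold vS
    refine sum_congr rfl fun x hx => sum_congr rfl fun i _ => ?_
    congr 1
    refine sum_congr rfl fun y hy => ?_
    show hs k y * (G1 k m (x, y, z) * b i z x y) = hs k y * (F1 (x, y, z) * b i z x y)
    rw [h1 k m hp (x, y, z) (by
      show (x, y, z) ∈ iv k m.1 ×ˢ iv k m.2.2.1 ×ˢ iv k m.2.2.2
      rw [mem_product, mem_product]
      exact ⟨hx, hy, hz⟩)]
  rw [e1, e2]

end

end Vale.Agent.P141.PL.H135
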