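import Vale.Agent.P141.PL.H135.D3a

/-!
# P141: (D3), leaf energies

`pW w k c z y y'` = average over the first coordinate of the Gram matrices of the rows `w j z x`,
`pB e z y y'` = Gram matrix of the `e l z`; the energy of the products `w j z x y * e l z y` is the
pairing of the two, hence at most the product of the Hilbert-Schmidt norms (averaged over `z`).
`Wsq_gain`: if `w j z x y = F (x,y,z) * p j x y` then the average over `z` of the Hilbert-Schmidt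
norm gains the norms of the matrices `F (x,y,z) * F (x,y',z)`, `y, y'` fixed.
-/

namespace Vale.Agent.P141.PL.H135

open Finset Vale.Agent.P141.PL Vale.Agent.P141.PL.H477

noncomputable section

variable {J L : Type*} [Fintype J] [Fintype L]

/-- averaged Gram matrix -/
def pW (w : J → ℤ → ℤ → ℤ → ℝ) (k : ℕ) (a z y y' : ℤ) : ℝ :=
  (2 ^ k : ℝ)⁻¹ * ∑ x ∈ iv k a, ∑ j, w j z x y * w j z x y'

/-- Gram matrix -/
def pB (e : L → ℤ → ℤ → ℝ) (z y y' : ℤ) : ℝ := ∑ l, e l z y * e l z y'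

/-- square of the Hilbert-Schmidt norm, summed over the fixed variable -/
def Wsq (w : J → ℤ → ℤ → ℤ → ℝ) (k : ℕ) (c : Pt) : ℝ :=
  ∑ z ∈ iv k c.2.2, ∑ y ∈ iv k c.2.1, ∑ y' ∈ iv k c.2.1, pW w k c.1 z y y' ^ 2

/-- square of the Hilbert-Schmidt norm, summed over the fixed variable -/
def Bsq (e : L → ℤ → ℤ → ℝ) (k : ℕ) (c : Pt) : ℝ :=
  ∑ z ∈ iv k c.2.2, ∑ y ∈ iv k c.2.1, ∑ y' ∈ iv k c.2.1, pB e z y y' ^ 2

theorem Wsq_nonneg (w : J → ℤ → ℤ → ℤ → ℝ) (k : ℕ) (c : Pt) : 0 ≤ Wsq w k c :=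
  sum_nonneg fun _ _ => sum_nonneg fun _ _ => sum_nonneg fun _ _ => sq_nonneg _

theorem Bsq_nonneg (e : L → ℤ → ℤ → ℝ) (k : ℕ) (c : Pt) : 0 ≤ Bsq e k c :=
  sum_nonneg fun _ _ => sum_nonneg fun _ _ => sum_nonneg fun _ _ => sq_nonneg _

/-- the products of the two families -/
def prf (w : J → ℤ → ℤ → ℤ → ℝ) (e : L → ℤ → ℤ → ℝ) : J × L → ℤ → ℤ → ℤ → ℝ :=
  fun i z x y => w i.1 z x y * e i.2 z y

/-- the energy is the pairing of the two Gram matrices -/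
theorem vE_pair (w : J → ℤ → ℤ → ℤ → ℝ) (e : L → ℤ → ℤ → ℝ) (k : ℕ) (c : Pt) :
    vE (prf w e) k c = ∑ z ∈ iv k c.2.2, ∑ y ∈ iv k c.2.1, ∑ y' ∈ iv k c.2.1,
      pW w k c.1 z y y' * pB e z y y' := by
  unfold vE
  rw [mul_sum]
  refine sum_congr rfl fun z _ => ?_
  have e1 : ∀ x : ℤ, ∑ i : J × L, (∑ y ∈ iv k c.2.1, prf w e i z x y) ^ 2
      = ∑ y ∈ iv k c.2.1, ∑ y' ∈ iv k c.2.1, (∑ j, w j z x y * w j z x y') * pB e z y y' := by
    intro x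
    rw [Fintype.sum_prod_type]
    have e2 : ∀ j l, (∑ y ∈ iv k c.2.1, prf w e (j, l) z x y) ^ 2
        = ∑ y ∈ iv k c.2.1, ∑ y' ∈ iv k c.2.1,
          (w j z x y * w j z x y') * (e l z y * e l z y') := by
      intro j l
      rw [sq, sum_mul_sum]
      refine sum_congr rfl fun y _ => sum_congr rfl fun y' _ => ?_
      unfold prf
      ring
    simp only [e2]
    have e3 : ∑ j, ∑ l, ∑ y ∈ iv k c.2.1, ∑ y' ∈ iv k c.2.1,
          (w j z x y * w j z x y') * (e l z y * e l z y')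
        = ∑ y ∈ iv k c.2.1, ∑ y' ∈ iv k c.2.1, ∑ j, ∑ l,
          (w j z x y * w j z x y') * (e l z y * e l z y') := by
      have s1 : ∀ j, ∑ l, ∑ y ∈ iv k c.2.1, ∑ y' ∈ iv k c.2.1,
          (w j z x y * w j z x y') * (e l z y * e l z y')
          = ∑ y ∈ iv k c.2.1, ∑ y' ∈ iv k c.2.1, ∑ l,
          (w j z x y * w j z x y') * (e l z y * e l z y') := by
        intro j
        rw [sum_comm]
        exact sum_congr rfl fun y _ => sum_comm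
      simp only [s1]
      rw [sum_comm]
      exact sum_congr rfl fun y _ => sum_comm
    rw [e3]
    refine sum_congr rfl fun y _ => sum_congr rfl fun y' _ => ?_
    unfold pB
    rw [sum_mul_sum]
  simp only [e1]
  have e4 : ∑ x ∈ iv k c.1, ∑ y ∈ iv k c.2.1, ∑ y' ∈ iv k c.2.1,
      (∑ j, w j z x y * w j z x y') * pB e z y y'
      = ∑ y ∈ iv k c.2.1, ∑ y' ∈ iv k c.2.1, (∑ x ∈ iv k c.1, ∑ j, w j z x y * w j z x y')
        * pB e z y y' := by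
    rw [sum_comm]
    refine sum_congr rfl fun y _ => ?_
    rw [sum_comm]
    refine sum_congr rfl fun y' _ => ?_
    rw [sum_mul]
  rw [e4, mul_sum]
  refine sum_congr rfl fun y _ => ?_
  rw [mul_sum]
  refine sum_congr rfl fun y' _ => ?_
  unfold pW
  rw [mul_assoc]

/-- Cauchy-Schwarz on a cube -/
theorem vE_sq_le (w : J → ℤ → ℤ → ℤ → ℝ) (e : L → ℤ → ℤ → ℝ) (k : ℕ) (c : Pt) :
    vE (prf w e) k c ^ 2 ≤ Wsq w k c * Bsq e k c := by
  rw [vE_pair]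
  unfold Wsq Bsq
  have h1 : ∀ F : ℤ → ℤ → ℤ → ℝ, ∑ z ∈ iv k c.2.2, ∑ y ∈ iv k c.2.1, ∑ y' ∈ iv k c.2.1, F z y y'
      = ∑ p ∈ iv k c.2.2 ×ˢ iv k c.2.1 ×ˢ iv k c.2.1, F p.1 p.2.1 p.2.2 := by
    intro F
    rw [sum_product]
    refine sum_congr rfl fun z _ => ?_
    rw [sum_product]
  rw [h1 (fun z y y' => pW w k c.1 z y y' * pB e z y y'),
    h1 (fun z y y' => pW w k c.1 z y y' ^ 2), h1 (fun z y y' => pB e z y y' ^ 2)]
  exact sum_mul_sq_le_sq_mul_sq _ _ _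

/-- **leaf energies** -/
theorem LS_vE_le (w : J → ℤ → ℤ → ℤ → ℝ) (e : L → ℤ → ℤ → ℝ) (n : ℕ) (C : Pt)
    (A : ℕ → Pt → Prop) :
    LS n C A (vE (prf w e)) ≤ Real.sqrt (LS n C A (Wsq w)) * Real.sqrt (LS n C A (Bsq e)) :=
  LS_cs (Wsq_nonneg w) (Bsq_nonneg e) (vE_sq_le w e)

/-! ### the gain of the average over the fixed variable -/

/-- Gram matrices of the labels of the piece -/
def pP (p : J → ℤ → ℤ → ℝ) (x y y' : ℤ) : ℝ := ∑ j, p j x y * p j x y'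

/-- `K k c y y'` bounds the square of the norm of the matrix `F (x,y,z) * F (x,y',z)`, `x`, `z` in
the cube (normalised) -/
def Gn (F : Pt → ℝ) (K : ℕ → Pt → ℤ → ℤ → ℝ) (k : ℕ) (c : Pt) : Prop :=
  ∀ y ∈ iv k c.2.1, ∀ y' ∈ iv k c.2.1, ∀ φ : ℤ → ℝ,
    ∑ z ∈ iv k c.2.2, (∑ x ∈ iv k c.1, F (x, y, z) * F (x, y', z) * φ x) ^ 2
      ≤ 4 ^ k * K k c y y' * ∑ x ∈ iv k c.1, φ x ^ 2

/-- weighted energy of the labels -/
def Pen (p : J → ℤ → ℤ → ℝ) (K : ℕ → Pt → ℤ → ℤ → ℝ) (k : ℕ) (c : Pt) : ℝ :=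
  ∑ y ∈ iv k c.2.1, ∑ y' ∈ iv k c.2.1, K k c y y' * ∑ x ∈ iv k c.1, pP p x y y' ^ 2

/-- **the gain** -/
theorem Wsq_gain (F : Pt → ℝ) (p : J → ℤ → ℤ → ℝ) (K : ℕ → Pt → ℤ → ℤ → ℝ) {k : ℕ} {c : Pt}
    (h : Gn F K k c) : Wsq (fun j z x y => F (x, y, z) * p j x y) k c ≤ Pen p K k c := by
  unfold Wsq Pen
  rw [sum_comm]
  refine sum_le_sum fun y hy => ?_
  rw [sum_comm]
  refine sum_le_sum fun y' hy' => ?_
  have e1 : ∀ z : ℤ, pW (fun j z x y => F (x, y, z) * p j x y) k c.1 z y y' ^ 2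
      = (4 ^ k : ℝ)⁻¹ * (∑ x ∈ iv k c.1, F (x, y, z) * F (x, y', z) * pP p x y y') ^ 2 := by
    intro z
    have e2 : ((2 ^ k : ℝ)⁻¹) ^ 2 = (4 ^ k : ℝ)⁻¹ := by
      rw [inv_pow, ← pow_mul, mul_comm k 2, pow_mul]
      norm_num
    unfold pW pP
    rw [mul_pow, e2]
    congr 2
    refine sum_congr rfl fun x _ => ?_
    rw [mul_sum]
    refine sum_congr rfl fun j _ => ?_
    ring
  simp only [e1]
  rw [← mul_sum]
  have h1 := h y hy y' hy' (fun x => pP p x y y')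
  have h4 : (0 : ℝ) < 4 ^ k := by positivity
  refine (mul_le_mul_of_nonneg_left h1 (inv_nonneg.mpr h4.le)).trans (le_of_eq ?_)
  field_simp

open Classical in
/-- **leaf energies with the gain** -/
theorem LS_vE_gain (F : Pt → ℝ) (p : J → ℤ → ℤ → ℝ) (e : L → ℤ → ℤ → ℝ)
    (K : ℕ → Pt → ℤ → ℤ → ℝ) (n : ℕ) (C : Pt) (A : ℕ → Pt → Prop)
    (h1 : ∀ k < n, ∀ c ∈ cb (n - k) C, ¬ A k c → A (k + 1) (cx 1 c) → Gn F K k c)
    (h0 : ∀ c ∈ cb n C, A 0 c → Gn F K 0 c) :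
    LS n C A (vE (prf (fun j z x y => F (x, y, z) * p j x y) e))
      ≤ Real.sqrt (LS n C A (Pen p K)) * Real.sqrt (LS n C A (Bsq e)) := by
  refine (LS_vE_le _ _ _ _ _).trans (mul_le_mul_of_nonneg_right (Real.sqrt_le_sqrt ?_)
    (Real.sqrt_nonneg _))
  exact LS_mono (fun k hk c hc h2 h3 => Wsq_gain F p K (h1 k hk c hc h2 h3))
    (fun c hc h2 => Wsq_gain F p K (h0 c hc h2))

/-! ### the two pieces -/

section two

variable {J' L' : Type*} [Fintype J'] [Fintype L']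

theorem Ctr.norm {ι κ : Type*} [Fintype ι] [Fintype κ] {T : ι → κ → ℝ} (hT : Ctr T) (β : κ → ℝ) :
    ∑ i, (∑ j, T i j * β j) ^ 2 ≤ ∑ j, β j ^ 2 := by
  set γ : ι → ℝ := fun i => ∑ j, T i j * β j with hγ
  have h1 := hT γ β
  have e1 : ∑ i, ∑ j, T i j * γ i * β j = ∑ i, γ i ^ 2 := by
    refine sum_congr rfl fun i _ => ?_
    have e2 : γ i ^ 2 = γ i * ∑ j, T i j * β j := by rw [sq]
    rw [e2, mul_sum]
    exact sum_congr rfl fun j _ => by ring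
  rw [e1] at h1
  have hX : 0 ≤ ∑ i, γ i ^ 2 := sum_nonneg fun _ _ => sq_nonneg _
  have hY : 0 ≤ ∑ j, β j ^ 2 := sum_nonneg fun _ _ => sq_nonneg _
  set X := ∑ i, γ i ^ 2
  set Y := ∑ j, β j ^ 2
  by_contra hcon
  push Not at hcon
  have h2 : Real.sqrt X * Real.sqrt Y < X := by
    have hX' : 0 < X := lt_of_le_of_lt hY hcon
    calc Real.sqrt X * Real.sqrt Y < Real.sqrt X * Real.sqrt X :=
          mul_lt_mul_of_pos_left (Real.sqrt_lt_sqrt hY hcon) (Real.sqrt_pos.mpr hX')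
      _ = X := Real.mul_self_sqrt hX
  linarith

/-- tensor products of bounded coefficient matrices are bounded -/
theorem Ctr.prod {t : J → J' → ℝ} {s : L → L' → ℝ} (ht : Ctr t) (hs : Ctr s) :
    Ctr (fun (i : J × L) (j : J' × L') => t i.1 j.1 * s i.2 j.2) := by
  intro α β
  set γ : J' → L → ℝ := fun j l => ∑ m, s l m * β (j, m) with hγ
  have e1 : ∑ i : J × L, ∑ j : J' × L', (t i.1 j.1 * s i.2 j.2) * α i * β j
      = ∑ l, ∑ i, ∑ j, t i j * α (i, l) * γ j l := by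
    rw [Fintype.sum_prod_type, sum_comm]
    refine sum_congr rfl fun l _ => sum_congr rfl fun i _ => ?_
    rw [Fintype.sum_prod_type]
    refine sum_congr rfl fun j _ => ?_
    rw [hγ]
    simp only
    rw [mul_sum]
    refine sum_congr rfl fun m _ => ?_
    ring
  rw [e1]
  have h1 : ∀ l, ∑ i, ∑ j, t i j * α (i, l) * γ j l
      ≤ Real.sqrt (∑ i, α (i, l) ^ 2) * Real.sqrt (∑ j, γ j l ^ 2) := fun l =>
    ht (fun i => α (i, l)) (fun j => γ j l)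
  refine (sum_le_sum fun l _ => h1 l).trans ?_
  refine (Real.sum_sqrt_mul_sqrt_le univ (fun l => sum_nonneg fun _ _ => sq_nonneg _)
    (fun l => sum_nonneg fun _ _ => sq_nonneg _)).trans ?_
  have e2 : ∑ l, ∑ i, α (i, l) ^ 2 = ∑ i : J × L, α i ^ 2 := by
    rw [Fintype.sum_prod_type, sum_comm]
  have e3 : ∑ l, ∑ j, γ j l ^ 2 ≤ ∑ j : J' × L', β j ^ 2 := by
    rw [sum_comm, Fintype.sum_prod_type]
    exact sum_le_sum fun j _ => hs.norm (fun m => β (j, m))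
  rw [e2]
  exact mul_le_mul_of_nonneg_left (Real.sqrt_le_sqrt e3) (Real.sqrt_nonneg _)

open Classical in
/-- **(D3), one gauge, static pieces.** On the boxes of the family the third face function is
`u (x1,x2) * sum_{j,j'} t (j,j') p j (x0,x1) q j' (x0,x2)` and `u * F0` is
`sum_{l,l'} s (l,l') e l (x3,x1) f l' (x3,x2)`; the coefficient matrices `t`, `s` are bounded by `1`
and may depend on the box (`t` on `x0` also, `s` on `x3` also). `K2`, `K1` bound the products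
`F2 (x0,x1,x3) * F2 (x0,x1',x3)` and `F1 (x0,x2,x3) * F1 (x0,x2',x3)` on the stopping cubes. -/
theorem d3_gauge {A2 A1 : ℕ → Pt → Prop} (hA2 : ∀ k c, A2 k c → A2 (k + 1) (cx 1 c))
    (hA1 : ∀ k c, A1 k c → A1 (k + 1) (cx 1 c)) (n : ℕ) (R : Bx) {P : ℕ → Bx → Prop}
    (hP : ∀ k m, P k m → NP m ∧ A2 k (fcb 2 m) ∧ A1 k (fcb 1 m))
    (F1 F2 : Pt → ℝ) (G0 G1 G2 G3 : ℕ → Bx → Pt → ℝ)
    (h1 : ∀ k m, P k m → ∀ c ∈ cb k (fcb 1 m), G1 k m c = F1 c)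
    (h2 : ∀ k m, P k m → ∀ c ∈ cb k (fcb 2 m), G2 k m c = F2 c)
    (p : J → ℤ → ℤ → ℝ) (q : J' → ℤ → ℤ → ℝ) (e : L → ℤ → ℤ → ℝ) (f : L' → ℤ → ℤ → ℝ)
    (t : ℕ → Bx → ℤ → J → J' → ℝ) (s : ℕ → Bx → ℤ → L → L' → ℝ)
    (ht : ∀ k m x, Ctr (t k m x)) (hs : ∀ k m z, Ctr (s k m z))
    (h : ∀ k m, P k m → ∀ x0 ∈ iv k m.1, ∀ x1 ∈ iv k m.2.1, ∀ x2 ∈ iv k m.2.2.1,
      ∀ x3 ∈ iv k m.2.2.2, G3 k m (x0, x1, x2) * G0 k m (x1, x2, x3)
        = (∑ i, ∑ j, t k m x0 i j * p i x0 x1 * q j x0 x2)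
          * (∑ i, ∑ j, s k m x3 i j * e i x3 x1 * f j x3 x2))
    (K2 K1 : ℕ → Pt → ℤ → ℤ → ℝ)
    (g2 : ∀ k < n, ∀ c ∈ cb (n - k) (fcb 2 R), ¬ A2 k c → A2 (k + 1) (cx 1 c) → Gn F2 K2 k c)
    (g2' : ∀ c ∈ cb n (fcb 2 R), A2 0 c → Gn F2 K2 0 c)
    (g1 : ∀ k < n, ∀ c ∈ cb (n - k) (fcb 1 R), ¬ A1 k c → A1 (k + 1) (cx 1 c) → Gn F1 K1 k c)
    (g1' : ∀ c ∈ cb n (fcb 1 R), A1 0 c → Gn F1 K1 0 c) :
    ∑ k ∈ Icc 1 n, (2 ^ k : ℝ)⁻¹ * ∑ m ∈ dn (n - k) R,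
        (if P k m then |loc k m (G0 k m) (G1 k m) (G2 k m) (G3 k m)| else 0)
      ≤ 3 * Real.sqrt (Real.sqrt (LS n (fcb 2 R) A2 (Pen p K2))
            * Real.sqrt (LS n (fcb 2 R) A2 (Bsq e)))
          * Real.sqrt (Real.sqrt (LS n (fcb 1 R) A1 (Pen q K1))
            * Real.sqrt (LS n (fcb 1 R) A1 (Bsq f))) := by
  have key := d3_loc (ι := J × L) (κ := J' × L') hA2 hA1 n R hP F1 F2 G0 G1 G2 G3
    (fun i z x y => p i.1 x y * e i.2 z y) (fun j z x y => q j.1 x y * f j.2 z y)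
    (fun k m z x i j => t k m x i.1 j.1 * s k m z i.2 j.2)
    (fun k m z x => (ht k m x).prod (hs k m z)) h1 h2 (by
      intro k m hp x0 h0 x1 h1 x2 h2 x3 h3
      rw [h k m hp x0 h0 x1 h1 x2 h2 x3 h3, sum_mul_sum, Fintype.sum_prod_type]
      refine sum_congr rfl fun i _ => sum_congr rfl fun l _ => ?_
      rw [sum_mul_sum, Fintype.sum_prod_type]
      refine sum_congr rfl fun j _ => sum_congr rfl fun l' _ => ?_
      ring)
  have e2 : (fun (i : J × L) z x y => F2 (x, y, z) * (p i.1 x y * e i.2 z y))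
      = prf (fun j z x y => F2 (x, y, z) * p j x y) e := by
    funext i z x y
    unfold prf
    ring
  have e1 : (fun (i : J' × L') z x y => F1 (x, y, z) * (q i.1 x y * f i.2 z y))
      = prf (fun j z x y => F1 (x, y, z) * q j x y) f := by
    funext i z x y
    unfold prf
    ring
  rw [e2, e1] at key
  refine key.trans ?_
  have q2 := LS_vE_gain F2 p e K2 n (fcb 2 R) A2 g2 g2'
  have q1 := LS_vE_gain F1 q f K1 n (fcb 1 R) A1 g1 g1'
  exact mul_le_mul (mul_le_mul_of_nonneg_left (Real.sqrt_le_sqrt q2) (by norm_num))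
    (Real.sqrt_le_sqrt q1) (Real.sqrt_nonneg _) (by positivity)

end two

end

end Vale.Agent.P141.PL.H135
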