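import Vale.Agent.P141.PL.H620.UnifOp

/-!
# P141: final assembly: uniform root estimates imply that `T` is bounded

`RootTh n H P` (PL/H571/Defs) with one constant `P = C c` for the heights `H = n ^ c` is the only
thing needed.
-/

namespace Vale.Agent.P141.PL.H135

open MeasureTheory Set Filter Topology
open scoped ENNReal ComplexConjugate SchwartzMap
open Vale.Agent.P141 Vale.Agent.P141.H97 Vale.Agent.P141.H115 Vale.Agent.P141.PL.H571
open Vale.Agent.P141.PL Vale.Agent.P141.PL.H620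

/-- **uniform root estimates**: heights `n ^ c`, constants independent of the number of scales -/
def RootU : Prop := ∀ c : ℕ, ∃ C : ℝ, 0 ≤ C ∧ ∀ n : ℕ, 1 ≤ n → RootTh n ((n : ℝ) ^ c) C

theorem hypU_zero (hR : RootU) : HypU 0 := by
  refine fun D' hD' => ?_
  set D : ℝ := max D' (1 / 4) with hDdef
  have hD0 : 0 < D := lt_of_lt_of_le (by norm_num) (le_max_right _ _)
  have hD2 : D < 1 / 2 := max_lt hD' (by norm_num)
  have h1D : 2 < 1 / D := by rw [lt_div_iff₀ hD0]; linarith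
  set q : ℝ := (2 + 1 / D) / 2 with hq
  have hq2 : 2 < q := by rw [hq]; linarith
  have hDq : D * q < 1 := by
    have : D * q = D + 1 / 2 := by rw [hq]; field_simp
    linarith
  obtain ⟨C₁, hC₁, hroot⟩ := node_of_root_unif hq2 hDq
  obtain ⟨c, hc⟩ := exists_nat_ge (2 / (q - 2))
  obtain ⟨C, hC, hR⟩ := hR c
  refine ⟨C₁ * (C + 1), by positivity, fun d hd hdD hd1 n => ?_⟩
  have hdD' : ∀ j, d j ≤ D := fun j => (hdD j).trans (le_max_left _ _)
  rcases Nat.eq_zero_or_pos n with rfl | hn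
  · have h1 := hroot d hd hdD' hd1 0 1 0 one_pos le_rfl (H95.rootTh_zero 1)
    refine H95.Node.mono h1 ?_
    simp only [Nat.cast_zero, zero_mul, add_zero, mul_zero]
    positivity
  · have hn1 : (1 : ℝ) ≤ n := by exact_mod_cast hn
    have hn0 : (0 : ℝ) < n := by linarith
    have h1 := hroot d hd hdD' hd1 n ((n : ℝ) ^ c) _ (by positivity) hC (hR n hn)
    refine H95.Node.mono h1 ?_
    have h2 : (n : ℝ) * ((n : ℝ) ^ c) ^ (-(q - 2) / 2) ≤ 1 := by
      rw [← Real.rpow_natCast, ← Real.rpow_mul hn0.le]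
      have h3 : (c : ℝ) * (-(q - 2) / 2) ≤ -1 := by
        have h4 : 2 ≤ (c : ℝ) * (q - 2) := by
          rwa [div_le_iff₀ (by linarith)] at hc
        linarith
      calc (n : ℝ) * (n : ℝ) ^ ((c : ℝ) * (-(q - 2) / 2)) ≤ (n : ℝ) * (n : ℝ) ^ (-1 : ℝ) := by
            refine mul_le_mul_of_nonneg_left ?_ hn0.le
            exact Real.rpow_le_rpow_of_exponent_le hn1 h3
        _ = 1 := by rw [Real.rpow_neg_one, mul_inv_cancel₀ hn0.ne']
    rw [pow_zero, mul_one]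
    exact mul_le_mul_of_nonneg_left (by linarith) hC₁.le

theorem hypAll_zero (hR : RootU) : HypAll 0 := by
  intro d hd hd2 hd1
  obtain ⟨j, -, hj⟩ := Finset.exists_max_image Finset.univ d ⟨0, Finset.mem_univ _⟩
  obtain ⟨C, hC, h⟩ := hypU_zero hR (d j) (hd2 j)
  exact ⟨C, hC, h d hd (fun i => hj i (Finset.mem_univ i)) hd1⟩

/-- **FINAL ASSEMBLY**: boundedness at every Hölder tuple with `2 < p_i < ∞`, `1 < r < 2`, from the
uniform root estimates. -/
theorem bounded_of_rootU (hR : RootU) {p₁ p₂ p₃ r : ℝ≥0∞} (h : IsHolderTuple p₁ p₂ p₃ r)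
    (h₁ : 2 < p₁) (h₂ : 2 < p₂) (h₃ : 2 < p₃) (t₁ : p₁ ≠ ∞) (t₂ : p₂ ≠ ∞) (t₃ : p₃ ≠ ∞)
    (hr : 1 < r) (hr2 : r < 2) : BoundedAt p₁ p₂ p₃ r :=
  bounded_of_hyp0 (hypAll_zero hR) h h₁ h₂ h₃ t₁ t₂ t₃ hr hr2

end Vale.Agent.P141.PL.H135
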