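import Vale.Agent.P141.PL.H135.FinW
import Vale.Agent.P141.PL.H620.Whole

/-!
# P141: final assembly for an arbitrary growth of the root constants

`RootG ω`: root estimates with constants `C ω n`. Output: the truncations of `T` grow at most like
`ω (number of scales)`, and `T` itself when one function is regular and of bounded support; in
particular the triple logarithm for `ω n = (1 + log (1 + log n)) ^ m`.
-/

namespace Vale.Agent.P141.PL.H135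

open MeasureTheory Set Filter Topology
open scoped ENNReal ComplexConjugate SchwartzMap
open Vale.Agent.P141 Vale.Agent.P141.H97 Vale.Agent.P141.H115 Vale.Agent.P141.PL.H571
open Vale.Agent.P141.PL Vale.Agent.P141.PL.H620

/-- the operator bound at `(3,3,6;6/5)` for one pair of truncations -/
def OpN (α₁ α₂ α₃ δ l B : ℝ) : Prop :=
  ∀ f₁ f₂ f₃ : ℝ → ℂ, Nice f₁ → Nice f₂ → Nice f₃ →
    eLpNorm (TT δ l α₁ α₂ α₃ f₁ f₂ f₃) (6 / 5) volume ≤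
      ENNReal.ofReal B * (eLpNorm f₁ 3 volume * eLpNorm f₂ 3 volume *
        eLpNorm f₃ 6 volume)

/-- all scales together -/
theorem wholeN {α₁ α₂ α₃ : ℝ} (h30 : α₃ ≠ 0) (h31 : α₃ - α₁ ≠ 0) (h32 : α₃ - α₂ ≠ 0) :
    ∃ C : ℝ, 0 ≤ C ∧ ∀ f₁ f₂ f₃ : ℝ → ℂ, Nice f₁ → Nice f₂ → Nice f₃ →
      ∀ a l N B : ℝ, 0 < l → 2 ≤ N → 0 ≤ B → OpN α₁ α₂ α₃ (l / N) l B →
      (∀ x, x ∉ Icc a (a + l) → f₃ x = 0) →
      (∀ s, eLpNorm (fun x => f₃ (x - s) - f₃ x) 6 volume ≤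
        ENNReal.ofReal (N / l * |s|) * eLpNorm f₃ 6 volume) →
      ∀ ε R : ℝ, 0 < ε → ε < l / N → l < R →
      eLpNorm (TT ε R α₁ α₂ α₃ f₁ f₂ f₃) (6 / 5) volume ≤
        ENNReal.ofReal (C + B) * (eLpNorm f₁ 3 volume *
          eLpNorm f₂ 3 volume * eLpNorm f₃ 6 volume) := by
  obtain ⟨C₁, hC₁, H₁⟩ := small
  obtain ⟨C₃, hC₃, H₃⟩ := large h30 h31 h32
  refine ⟨C₁ + 2 * |α₃| + C₃, by positivity, ?_⟩
  intro f₁ f₂ f₃ h₁ h₂ h₃ a l N B hl hN hB H₂ hs hreg ε R hε hεδ hR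
  have hN0 : 0 < N := by linarith
  set δ : ℝ := l / N with hδ
  have hδ0 : 0 < δ := by positivity
  have hδl : δ < l := by
    rw [hδ, div_lt_iff₀ hN0]; nlinarith
  have b1 := H₁ α₁ α₂ α₃ f₁ f₂ f₃ h₁ h₂ h₃ (N / l) (by positivity) hreg ε δ hε hεδ
  have b2 := H₂ f₁ f₂ f₃ h₁ h₂ h₃
  have b3 := H₃ f₁ f₂ f₃ h₁ h₂ h₃ a l R hl hs
  have hsplit : TT ε R α₁ α₂ α₃ f₁ f₂ f₃ = fun x => TT ε δ α₁ α₂ α₃ f₁ f₂ f₃ x +
      (TT δ l α₁ α₂ α₃ f₁ f₂ f₃ x + TT l R α₁ α₂ α₃ f₁ f₂ f₃ x) := by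
    funext x
    rw [TT_split hε hεδ (hδl.trans hR) h₁ h₂ h₃ x, TT_split hδ0 hδl hR h₁ h₂ h₃ x]
  have m1 := (TT_meas (ε := ε) (R := δ) (α₁ := α₁) (α₂ := α₂) (α₃ := α₃) h₁ h₂
    h₃).aestronglyMeasurable (μ := (volume : Measure ℝ))
  have m2 := (TT_meas (ε := δ) (R := l) (α₁ := α₁) (α₂ := α₂) (α₃ := α₃) h₁ h₂
    h₃).aestronglyMeasurable (μ := (volume : Measure ℝ))
  have m3 := (TT_meas (ε := l) (R := R) (α₁ := α₁) (α₂ := α₂) (α₃ := α₃) h₁ h₂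
    h₃).aestronglyMeasurable (μ := (volume : Measure ℝ))
  have h1r : (1 : ℝ≥0∞) ≤ 6 / 5 := by
    rw [ENNReal.le_div_iff_mul_le (by norm_num) (by norm_num)]; norm_num
  set P := eLpNorm f₁ 3 volume * eLpNorm f₂ 3 volume * eLpNorm f₃ 6 volume with hP
  have e1 : C₁ + 2 * δ * (N / l * |α₃|) = C₁ + 2 * |α₃| := by
    rw [hδ]; field_simp
  rw [e1] at b1
  rw [hsplit]
  have t1 : eLpNorm (fun x => TT ε δ α₁ α₂ α₃ f₁ f₂ f₃ x +
      (TT δ l α₁ α₂ α₃ f₁ f₂ f₃ x + TT l R α₁ α₂ α₃ f₁ f₂ f₃ x)) (6 / 5) volume ≤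
      ENNReal.ofReal (C₁ + 2 * |α₃|) * P + (ENNReal.ofReal B * P + ENNReal.ofReal C₃ * P) := by
    refine (eLpNorm_add_le m1 (m2.add m3) h1r).trans (add_le_add b1 ?_)
    exact (eLpNorm_add_le m2 m3 h1r).trans (add_le_add b2 b3)
  refine t1.trans (le_of_eq ?_)
  rw [← add_mul, ← add_mul, ← ENNReal.ofReal_add hB (by positivity),
    ← ENNReal.ofReal_add (by positivity) (by positivity)]
  congr 2
  ring

/-- **`T` itself at `(3,3,6;6/5)` and permutations, one number of scales** -/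
theorem tht_n : ∃ c : ℕ, ∃ C : ℝ, 0 ≤ C ∧ ∀ n : ℕ, 1 ≤ n → ∀ P : ℝ, 0 ≤ P →
    RootTh n ((n : ℝ) ^ c) P →
    ∀ f : Fin 3 → 𝓢(ℝ, ℂ), ∀ j : Fin 3, ∀ a l N : ℝ, 0 < l → 2 ≤ N → N ≤ 2 ^ n →
    (∀ x, x ∉ Icc a (a + l) → f j x = 0) →
    (∀ s, eLpNorm (fun x => f j (x - s) - f j x) 6 volume ≤
        ENNReal.ofReal (N / l * |s|) * eLpNorm (f j) 6 volume) →
    eLpNorm (THT (f 0) (f 1) (f 2)) (6 / 5) volume ≤
      ENNReal.ofReal (C * (P + 1)) * ∏ i, eLpNorm (f i) (if i = j then 6 else 3) volume := by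
  obtain ⟨c, K, hK, hop⟩ := op_n (D := 1 / 3) (by norm_num)
  obtain ⟨⟨i3, i6⟩, i65⟩ := inv36
  have key : ∀ p₁ p₂ p₃ : ℝ≥0∞, (p₁ = 3 ∨ p₁ = 6) → (p₂ = 3 ∨ p₂ = 6) → (p₃ = 3 ∨ p₃ = 6) →
      (6 / 5 : ℝ≥0∞)⁻¹ = p₁⁻¹ + p₂⁻¹ + p₃⁻¹ →
      ∀ n : ℕ, 1 ≤ n → ∀ P : ℝ, 0 ≤ P → RootTh n ((n : ℝ) ^ c) P →
      ∀ f₁ f₂ f₃ : ℝ → ℂ, Nice f₁ → Nice f₂ → Nice f₃ →
      ∀ ε R : ℝ, 0 < ε → ε < R → R ≤ 2 ^ n * ε →
        eLpNorm (TT ε R 1 2 3 f₁ f₂ f₃) (6 / 5) volume ≤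
        ENNReal.ofReal (K * (P + 1)) * eLpNorm f₁ p₁ volume *
          eLpNorm f₂ p₂ volume * eLpNorm f₃ p₃ volume := by
    intro p₁ p₂ p₃ h₁ h₂ h₃ hsum n hn P hP hR f₁ f₂ f₃ k₁ k₂ k₃ ε R hε hεR hRn
    have hv : ∀ {p : ℝ≥0∞}, (p = 3 ∨ p = 6) → 0 < (p⁻¹).toReal ∧ (p⁻¹).toReal ≤ 1 / 3 := by
      rintro p (rfl | rfl)
      · rw [i3]; norm_num
      · rw [i6]; norm_num
    refine hop n hn P hP hR p₁ p₂ p₃ (6 / 5) ?_ ?_ hsum f₁ f₂ f₃ k₁ k₂ k₃ ε R hε hεR hRn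
    · intro i
      fin_cases i
      · show 0 < 1 - ((6 / 5 : ℝ≥0∞)⁻¹).toReal
        rw [i65]; norm_num
      · exact (hv h₁).1
      · exact (hv h₂).1
      · exact (hv h₃).1
    · intro i
      fin_cases i
      · show 1 - ((6 / 5 : ℝ≥0∞)⁻¹).toReal ≤ 1 / 3
        rw [i65]; norm_num
      · exact (hv h₁).2
      · exact (hv h₂).2
      · exact (hv h₃).2
  have q0 : (6 / 5 : ℝ≥0∞)⁻¹ = 6⁻¹ + 3⁻¹ + 3⁻¹ := by rw [inv_sum]; ring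
  have q1 : (6 / 5 : ℝ≥0∞)⁻¹ = 3⁻¹ + 6⁻¹ + 3⁻¹ := by rw [inv_sum]; ring
  obtain ⟨C₀, hC₀, H₀⟩ := wholeN (α₁ := 2) (α₂ := 3) (α₃ := 1) (by norm_num) (by norm_num)
    (by norm_num)
  obtain ⟨C₁, hC₁, H₁⟩ := wholeN (α₁ := 1) (α₂ := 3) (α₃ := 2) (by norm_num) (by norm_num)
    (by norm_num)
  obtain ⟨C₂, hC₂, H₂⟩ := wholeN (α₁ := 1) (α₂ := 2) (α₃ := 3) (by norm_num) (by norm_num)
    (by norm_num)
  refine ⟨c, C₀ + C₁ + C₂ + K, by positivity, ?_⟩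
  intro n hn P hP hR f j a l N hl hN hNn hs hreg
  have hN0 : 0 < N := by linarith
  have hδ : 0 < l / N := div_pos hl hN0
  have hδl : l / N < l := by
    rw [div_lt_iff₀ hN0]; nlinarith
  have hln : l ≤ 2 ^ n * (l / N) := by
    rw [← mul_div_assoc, le_div_iff₀ hN0]
    nlinarith
  have hB : 0 ≤ K * (P + 1) := by positivity
  have nn := fun i => nice_schwartz (f i)
  have hmono : ∀ X : ℝ, 0 ≤ X → X ≤ C₀ + C₁ + C₂ → X + K * (P + 1) ≤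
      (C₀ + C₁ + C₂ + K) * (P + 1) := by
    intro X hX hX2
    nlinarith [mul_nonneg (add_nonneg (add_nonneg hC₀ hC₁) hC₂) hP]
  refine tht_le (f 0) (f 1) (f 2) hδ (l := l) fun ε R hε hεδ hR' => ?_
  obtain rfl | rfl | rfl : j = 0 ∨ j = 1 ∨ j = 2 := by fin_cases j <;> simp
  · rw [TT_rot]
    refine (H₀ _ _ _ (nn 1) (nn 2) (nn 0) a l N _ hl hN hB ?_ hs hreg ε R hε hεδ hR').trans ?_
    · intro f₁ f₂ f₃ k₁ k₂ k₃
      rw [TT_rot, TT_rot]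
      refine (key 6 3 3 (Or.inr rfl) (Or.inl rfl) (Or.inl rfl) q0 n hn P hP hR f₃ f₁ f₂ k₃ k₁ k₂
        _ _ hδ hδl hln).trans (le_of_eq ?_)
      ring
    refine mul_le_mul' (ENNReal.ofReal_le_ofReal (hmono C₀ hC₀ (by linarith))) (le_of_eq ?_)
    rw [Fin.prod_univ_three, if_pos rfl, if_neg (by decide), if_neg (by decide)]
    ring
  · rw [TT_23]
    refine (H₁ _ _ _ (nn 0) (nn 2) (nn 1) a l N _ hl hN hB ?_ hs hreg ε R hε hεδ hR').trans ?_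
    · intro f₁ f₂ f₃ k₁ k₂ k₃
      rw [TT_23]
      refine (key 3 6 3 (Or.inl rfl) (Or.inr rfl) (Or.inl rfl) q1 n hn P hP hR f₁ f₃ f₂ k₁ k₃ k₂
        _ _ hδ hδl hln).trans (le_of_eq ?_)
      ring
    refine mul_le_mul' (ENNReal.ofReal_le_ofReal (hmono C₁ hC₁ (by linarith))) (le_of_eq ?_)
    rw [Fin.prod_univ_three, if_pos rfl, if_neg (by decide), if_neg (by decide)]
    ring
  · refine (H₂ _ _ _ (nn 0) (nn 1) (nn 2) a l N _ hl hN hB ?_ hs hreg ε R hε hεδ hR').trans ?_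
    · intro f₁ f₂ f₃ k₁ k₂ k₃
      refine (key 3 3 6 (Or.inl rfl) (Or.inl rfl) (Or.inr rfl) inv_sum n hn P hP hR f₁ f₂ f₃
        k₁ k₂ k₃ _ _ hδ hδl hln).trans (le_of_eq ?_)
      ring
    refine mul_le_mul' (ENNReal.ofReal_le_ofReal (hmono C₂ hC₂ (by linarith))) (le_of_eq ?_)
    rw [Fin.prod_univ_three, if_pos rfl, if_neg (by decide), if_neg (by decide)]

/-! ## arbitrary growth -/

/-- **root estimates with the growth `ω`** -/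
def RootG (ω : ℕ → ℝ) : Prop :=
  ∀ c : ℕ, ∃ C : ℝ, 0 ≤ C ∧ ∀ n : ℕ, 1 ≤ n → RootTh n ((n : ℝ) ^ c) (C * ω n)

/-- truncations, growth `ω` -/
theorem trunc_growth {ω : ℕ → ℝ} (h0 : ∀ n, 1 ≤ n → 1 ≤ ω n) (hR : RootG ω)
    {p₁ p₂ p₃ r : ℝ≥0∞} (h : IsHolderTuple p₁ p₂ p₃ r)
    (h₁ : 2 < p₁) (h₂ : 2 < p₂) (h₃ : 2 < p₃) (hr : 1 ≤ r) (hr2 : r < 2) :
    ∃ C : ℝ, 0 ≤ C ∧ ∀ f₁ f₂ f₃ : 𝓢(ℝ, ℂ), ∀ ε R : ℝ, 0 < ε → ε < R → ∀ n : ℕ, 1 ≤ n →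
      R ≤ 2 ^ n * ε → eLpNorm (truncTHT f₁ f₂ f₃ ε R) r volume ≤ ENNReal.ofReal (C * ω n) *
          eLpNorm f₁ p₁ volume * eLpNorm f₂ p₂ volume * eLpNorm f₃ p₃ volume := by
  obtain ⟨c, K, hK, hT⟩ := trunc_n h h₁ h₂ h₃ hr hr2
  obtain ⟨C, hC, hRc⟩ := hR c
  refine ⟨K * (C + 1), by positivity, fun f₁ f₂ f₃ ε R hε hεR n hn hRn => ?_⟩
  have hω := h0 n hn
  refine (hT n hn (C * ω n) (by positivity) (hRc n hn) f₁ f₂ f₃ ε R hε hεR hRn).trans ?_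
  refine mul_le_mul' (mul_le_mul' (mul_le_mul' (ENNReal.ofReal_le_ofReal ?_) le_rfl) le_rfl)
    le_rfl
  rw [mul_assoc]
  refine mul_le_mul_of_nonneg_left ?_ hK
  linarith

/-- `T` itself, one function regular, growth `ω` -/
theorem tht_growth {ω : ℕ → ℝ} (h0 : ∀ n, 1 ≤ n → 1 ≤ ω n) (hR : RootG ω) :
    ∃ C : ℝ, 0 ≤ C ∧ ∀ f : Fin 3 → 𝓢(ℝ, ℂ), ∀ j : Fin 3, ∀ a l N : ℝ, 0 < l → 2 ≤ N →
    ∀ n : ℕ, 1 ≤ n → N ≤ 2 ^ n →
    (∀ x, x ∉ Icc a (a + l) → f j x = 0) →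
    (∀ s, eLpNorm (fun x => f j (x - s) - f j x) 6 volume ≤
        ENNReal.ofReal (N / l * |s|) * eLpNorm (f j) 6 volume) →
    eLpNorm (THT (f 0) (f 1) (f 2)) (6 / 5) volume ≤
      ENNReal.ofReal (C * ω n) * ∏ i, eLpNorm (f i) (if i = j then 6 else 3) volume := by
  obtain ⟨c, K, hK, hT⟩ := tht_n
  obtain ⟨C, hC, hRc⟩ := hR c
  refine ⟨K * (C + 1), by positivity, ?_⟩
  intro f j a l N hl hN n hn hNn hs hreg
  have hω := h0 n hn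
  refine (hT n hn (C * ω n) (by positivity) (hRc n hn) f j a l N hl hN hNn hs hreg).trans ?_
  refine mul_le_mul' (ENNReal.ofReal_le_ofReal ?_) le_rfl
  rw [mul_assoc]
  refine mul_le_mul_of_nonneg_left ?_ hK
  linarith

/-- the triple logarithm -/
noncomputable def w3 (m n : ℕ) : ℝ := (1 + Real.log (1 + Real.log n)) ^ m

theorem w3_ge (m : ℕ) {n : ℕ} (hn : 1 ≤ n) : 1 ≤ w3 m n := by
  have h1 : (1 : ℝ) ≤ n := by exact_mod_cast hn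
  have h2 : 0 ≤ Real.log n := Real.log_nonneg h1
  have h3 : 0 ≤ Real.log (1 + Real.log n) := Real.log_nonneg (by linarith)
  exact one_le_pow₀ (by linarith)

/-- the number of scales -/
theorem exists_scales {X : ℝ} (hX : 1 ≤ X) : ∃ n : ℕ, 1 ≤ n ∧ X ≤ 2 ^ n ∧
    (n : ℝ) ≤ 2 * (1 + Real.log X) := by
  have hl2 : 0 < Real.log 2 := Real.log_pos (by norm_num)
  have hl2' : (1 : ℝ) / 2 ≤ Real.log 2 := by
    have := Real.log_two_gt_d9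
    linarith
  have h1 : 0 ≤ Real.log X := Real.log_nonneg hX
  refine ⟨⌈Real.log X / Real.log 2⌉₊ + 1, by omega, ?_, ?_⟩
  · have h2 := Nat.le_ceil (Real.log X / Real.log 2)
    rw [div_le_iff₀ hl2] at h2
    have h3 : Real.log X ≤ Real.log (2 ^ ⌈Real.log X / Real.log 2⌉₊) := by
      rw [Real.log_pow]; exact h2
    have h4 := (Real.log_le_log_iff (by linarith) (by positivity)).1 h3
    refine h4.trans ?_
    exact pow_le_pow_right₀ (by norm_num) (by omega)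
  · have h2 := Nat.ceil_lt_add_one (show 0 ≤ Real.log X / Real.log 2 by positivity)
    have h3 : Real.log X / Real.log 2 ≤ 2 * Real.log X := by
      rw [div_le_iff₀ hl2]
      nlinarith
    push_cast
    linarith

theorem w3_le (m : ℕ) {X : ℝ} (hX : 1 ≤ X) : ∃ n : ℕ, 1 ≤ n ∧ X ≤ 2 ^ n ∧
    w3 m n ≤ 2 ^ m * (1 + Real.log (1 + Real.log (2 + Real.log X))) ^ m := by
  obtain ⟨n, hn, hXn, hnX⟩ := exists_scales hX
  refine ⟨n, hn, hXn, ?_⟩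
  have h1 : 0 ≤ Real.log X := Real.log_nonneg hX
  have h2 : (1 : ℝ) ≤ n := by exact_mod_cast hn
  have h3 : 0 ≤ Real.log n := Real.log_nonneg h2
  have h4 : 0 ≤ Real.log (2 + Real.log X) := Real.log_nonneg (by linarith)
  have hl2 : Real.log 2 ≤ 1 := by
    have := Real.log_two_lt_d9
    linarith
  have h5 : Real.log n ≤ 1 + Real.log (2 + Real.log X) := by
    calc Real.log n ≤ Real.log (2 * (2 + Real.log X)) :=
          Real.log_le_log (by linarith) (by linarith)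
      _ = Real.log 2 + Real.log (2 + Real.log X) := Real.log_mul (by norm_num) (by positivity)
      _ ≤ _ := by linarith
  have h6 : Real.log (1 + Real.log n) ≤ 1 + Real.log (1 + Real.log (2 + Real.log X)) := by
    calc Real.log (1 + Real.log n) ≤ Real.log (2 * (1 + Real.log (2 + Real.log X))) :=
          Real.log_le_log (by linarith) (by linarith)
      _ = Real.log 2 + Real.log (1 + Real.log (2 + Real.log X)) :=
          Real.log_mul (by norm_num) (by positivity)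
      _ ≤ _ := by linarith
  have h7 : 0 ≤ Real.log (1 + Real.log (2 + Real.log X)) := Real.log_nonneg (by linarith)
  have h8 : 0 ≤ Real.log (1 + Real.log n) := Real.log_nonneg (by linarith)
  unfold w3
  rw [← mul_pow]
  exact pow_le_pow_left₀ (by linarith) (by linarith) m

/-- **FINAL ASSEMBLY, triple logarithm** -/
theorem final_triple {m : ℕ} (hR : RootG (w3 m)) :
    (∀ p₁ p₂ p₃ r : ℝ≥0∞, IsHolderTuple p₁ p₂ p₃ r → 2 < p₁ → 2 < p₂ → 2 < p₃ →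
      1 ≤ r → r < 2 →
      ∃ C : ℝ, ∀ f₁ f₂ f₃ : 𝓢(ℝ, ℂ), ∀ ε R : ℝ, 0 < ε → ε < R →
        eLpNorm (truncTHT f₁ f₂ f₃ ε R) r volume ≤
          ENNReal.ofReal (C * (1 + Real.log (1 + Real.log (2 + Real.log (R / ε)))) ^ m) *
            eLpNorm f₁ p₁ volume * eLpNorm f₂ p₂ volume * eLpNorm f₃ p₃ volume) ∧
    (∃ C : ℝ, ∀ f : Fin 3 → 𝓢(ℝ, ℂ), ∀ j : Fin 3, ∀ a l N : ℝ, 0 < l → 2 ≤ N →
      (∀ x, x ∉ Icc a (a + l) → f j x = 0) →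
      (∀ s, eLpNorm (fun x => f j (x - s) - f j x) 6 volume ≤
          ENNReal.ofReal (N / l * |s|) * eLpNorm (f j) 6 volume) →
      eLpNorm (THT (f 0) (f 1) (f 2)) (6 / 5) volume ≤
        ENNReal.ofReal (C * (1 + Real.log (1 + Real.log (2 + Real.log N))) ^ m) *
          ∏ i, eLpNorm (f i) (if i = j then 6 else 3) volume) := by
  refine ⟨?_, ?_⟩
  · intro p₁ p₂ p₃ r h h₁ h₂ h₃ hr hr2
    obtain ⟨C, hC, H⟩ := trunc_growth (fun n hn => w3_ge m hn) hR h h₁ h₂ h₃ hr hr2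
    refine ⟨C * 2 ^ m, fun f₁ f₂ f₃ ε R hε hεR => ?_⟩
    have hX : 1 ≤ R / ε := (one_le_div hε).2 hεR.le
    obtain ⟨n, hn, hXn, hw⟩ := w3_le m hX
    have hRn : R ≤ 2 ^ n * ε := by rwa [div_le_iff₀ hε] at hXn
    refine (H f₁ f₂ f₃ ε R hε hεR n hn hRn).trans ?_
    refine mul_le_mul' (mul_le_mul' (mul_le_mul' (ENNReal.ofReal_le_ofReal ?_) le_rfl) le_rfl)
      le_rfl
    rw [mul_assoc]
    exact mul_le_mul_of_nonneg_left hw hC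
  · obtain ⟨C, hC, H⟩ := tht_growth (fun n hn => w3_ge m hn) hR
    refine ⟨C * 2 ^ m, fun f j a l N hl hN hs hreg => ?_⟩
    obtain ⟨n, hn, hXn, hw⟩ := w3_le m (show 1 ≤ N by linarith)
    refine (H f j a l N hl hN n hn hXn hs hreg).trans ?_
    refine mul_le_mul' (ENNReal.ofReal_le_ofReal ?_) le_rfl
    rw [mul_assoc]
    exact mul_le_mul_of_nonneg_left hw hC

end Vale.Agent.P141.PL.H135
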